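import Vale.Agent.P298.Main.Final

/-!
# P298: the Lê–Ramanujam problem for surfaces (`n = 3`)
-/

open Metric Vale.Agent.P298

namespace Vale.Agent.Results.P298.MuConstantSurfaces

/-- **The Lê–Ramanujam problem for `n = 3`, affirmative answer.** Let `F` be holomorphic near
`{0} × Δ` in `ℂ³ × Δ`, where `Δ` is the disk of radius `r`, with `f_t(0) = 0` for all `t ∈ Δ`,
`f_t = F(·, t)`, and let the Milnor number of `f_t` at `0` be finite and independent of `t ∈ Δ`.
Then the family `f_t` is topologically right-trivial (after shrinking the disk). Moreover all the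
germs `f_t`, `t ∈ Δ`, are topologically right-equivalent, and the embedded topological type of
`f_t⁻¹(0)` at `0` is the same for all `t ∈ Δ`. -/
theorem result : ∀ (r : ℝ), 0 < r → ∀ F : (Fin 3 → ℂ) → ℂ → ℂ, IsHolFamily r F →
    ∀ μ : ℕ, (∀ t ∈ ball (0 : ℂ) r, Milnor (F · t) μ) →
      TopRightTrivial r F ∧
      (∀ t ∈ ball (0 : ℂ) r, ∀ t' ∈ ball (0 : ℂ) r, TopRightEquiv (F · t) (F · t')) ∧
      ∀ t ∈ ball (0 : ℂ) r, SameEmbType (F · 0) (F · t) :=
  fun _ hr _ hF _ hμ => Main.final hr hF hμ

end Vale.Agent.Results.P298.MuConstantSurfaces
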